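import Vale.Agent.P366.H707.G.Defs
import Vale.Agent.P366.H353.CF.DivQ

/-! Metrics `g = δ + F df ⊗ df`: the flux fields. -/

open MeasureTheory Metric
open scoped ContDiff

noncomputable section
namespace Vale.Agent.P366.FG

open Vale.Agent.P366.CF (QZ)

variable {n : ℕ}

/-- The function `W = F |∂f|²`. -/
def ww (f F : Stmt.E n → ℝ) (x : Stmt.E n) : ℝ := F x * ∑ i, Stmt.pd i f x ^ 2

/-- The first part of the flux field, from the metric. -/
def X0 (g : Stmt.Field n) (f F : Stmt.E n → ℝ) (i : Fin n) (x : Stmt.E n) : ℝ :=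
  (∑ j, (Stmt.pd j (fun y => g y i j) x - Stmt.pd i (fun y => g y j j) x)) / 2 / wsq f F x

/-- The vector field `u ∇f`. -/
def Zu (g : Stmt.Field n) (f u : Stmt.E n → ℝ) (j : Fin n) (x : Stmt.E n) : ℝ := u x * grad g f j x

/-- The third part of the flux field. -/
def X2 (f F u : Stmt.E n → ℝ) (i : Fin n) (x : Stmt.E n) : ℝ := u x ^ 2 * cf f i x / (2 * wsq f F x)

/-- The flux field. -/
def XG (g K : Stmt.Field n) (f F u : Stmt.E n → ℝ) (i : Fin n) (x : Stmt.E n) : ℝ :=
  X0 g f F i x - QZ (ww f F) g K (Zu g f u) i x - X2 f F u i x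

/-- The flux field with a vector field `Y`. -/
def XY (g K : Stmt.Field n) (f F u : Stmt.E n → ℝ) (Y : Fin n → Stmt.E n → ℝ) (i : Fin n) (x : Stmt.E n) : ℝ :=
  XG g K f F u i x - QZ (ww f F) g K Y i x / 2

end Vale.Agent.P366.FG
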