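import Vale.Agent.P366.H707.G.Zu
import Vale.Agent.P366.H353.CF.DivZ
import Vale.Agent.P366.CG.Lit

/-! Metrics `g = δ + F df ⊗ df`: the divergence of the flux field. -/

open MeasureTheory Metric Filter Topology Set
open scoped ContDiff

noncomputable section
namespace Vale.Agent.H707G

open Vale.Agent.P366.Stmt Vale.Agent.P366.T2 Vale.Agent.P366.FG
open Vale.Agent.P366.GC (Met)
open Vale.Agent.P366.H896 (CR)
open Vale.Agent.P366.CF (QZ div_gQ)
open Vale.Agent.P366.GraphClass (piDer covDer)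

variable {n : ℕ} {D : Exterior n} {f F u : E n → ℝ} {Y Z : Fin n → E n → ℝ} {x : E n}

/-- `det g` is positive. -/
lemma wsq_pos (hg : ∀ x, 0 ≤ D.F x → ∀ i j, D.g x i j = lvlMetric f F x i j)
    (hx : 0 ≤ D.F x) : 0 < wsq f F x := by
  have h := Vale.Agent.P366.CG.sum_sq_pos (a := fun i => pd i f x) (c := F x) (D.pos x hx)
    fun i j => hg x hx i j
  have e : wsq f F x = 1 + F x * ∑ i, pd i f x * pd i f x := by
    unfold wsq
    simp only [sq]
  rw [e]
  exact h

/-- the interior -/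
def Oi (D : Exterior n) : Set (E n) := {y | 0 < D.F y}

lemma met_D (D : Exterior n) : Met D.g (Oi D) where
  op := isOpen_lt continuous_const D.dom.1.continuous
  sm := fun a b x _ => ((D.smooth a b).1.contDiffAt).of_le
    (Vale.Agent.P366.CF.nat_le_top' _)
  symm := fun x _ a b => (D.symm x a b).1
  det := fun x hx => (D.pos x (le_of_lt hx)).det_pos.ne'

lemma cr_of {k : ℕ} {O : Set (E n)} {φ : E n → ℝ} (h : Smooth φ) : CR k O φ :=
  fun x _ => (h.contDiffAt).of_le (Vale.Agent.P366.CF.nat_le_top' _)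

lemma smooth_pd' {φ : E n → ℝ} (h : Smooth φ) (i : Fin n) : Smooth (pd i φ) :=
  Vale.Agent.H45G.smooth_pd h i

lemma wsq_smooth (sf : Smooth f) (sF : Smooth F) : Smooth (wsq f F) :=
  contDiff_const.add (sF.mul (ContDiff.sum fun i _ => (smooth_pd' sf i).pow 2))

lemma up_cd (hx : 0 ≤ D.F x) (i j : Fin n) : ContDiffAt ℝ ∞ (up D.g i j) x :=
  Vale.Agent.P366.Bridge.contDiffAt_inv_entry (A := mat D.g)
    (fun a b => ((D.smooth a b).1).contDiffAt) (D.pos x hx).det_pos.ne' i j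

lemma grad_cd {φ : E n → ℝ} (h : Smooth φ) (hx : 0 ≤ D.F x) (i : Fin n) :
    ContDiffAt ℝ ∞ (grad D.g φ i) x :=
  ContDiffAt.sum fun j _ => (up_cd hx i j).mul (smooth_pd' h j).contDiffAt

lemma momT_cd (hx : 0 ≤ D.F x) (i j : Fin n) :
    ContDiffAt ℝ ∞ (fun y => momT D.g D.K y i j) x := by
  have htr : ContDiffAt ℝ ∞ (tr D.g D.K) x :=
    ContDiffAt.sum fun a _ => ContDiffAt.sum fun b _ =>
      (up_cd hx a b).mul ((D.smooth a b).2.contDiffAt)
  exact ((D.smooth i j).2.contDiffAt).sub (htr.mul ((D.smooth i j).1.contDiffAt))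

lemma Zu_cd (sf : Smooth f) (su : Smooth u) (hx : 0 ≤ D.F x) (j : Fin n) :
    ContDiffAt ℝ ∞ (Zu D.g f u j) x :=
  (su.contDiffAt).mul (grad_cd sf hx j)

lemma QZw_cd (sf : Smooth f) (sF : Smooth F)
    (hg : ∀ x, 0 ≤ D.F x → ∀ i j, D.g x i j = lvlMetric f F x i j)
    (hx : 0 ≤ D.F x) (hZ : ∀ j, ContDiffAt ℝ ∞ (Z j) x) (i : Fin n) :
    ContDiffAt ℝ ∞ (QZ (ww f F) D.g D.K Z i) x := by
  have hs : ContDiffAt ℝ ∞ (fun y => √(1 + ww f F y)) x :=
    ((wsq_smooth sf sF).contDiffAt).sqrt (wsq_pos hg hx).ne'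
  exact hs.mul (ContDiffAt.sum fun k _ => (up_cd hx i k).mul (ContDiffAt.sum fun j _ =>
    (momT_cd hx k j).mul (hZ j)))

lemma cf_smooth (sf : Smooth f) (i : Fin n) : Smooth (cf f i) :=
  ((smooth_pd' sf i).mul (ContDiff.sum fun j _ => smooth_pd' (smooth_pd' sf j) j)).sub
    (ContDiff.sum fun j _ => (smooth_pd' (smooth_pd' sf j) i).mul (smooth_pd' sf j))

lemma X2_cd (sf : Smooth f) (sF : Smooth F) (su : Smooth u)
    (hg : ∀ x, 0 ≤ D.F x → ∀ i j, D.g x i j = lvlMetric f F x i j)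
    (hx : 0 ≤ D.F x) (i : Fin n) : ContDiffAt ℝ ∞ (X2 f F u i) x :=
  (((su.pow 2).mul (cf_smooth sf i)).contDiffAt).div
    ((contDiff_const.mul (wsq_smooth sf sF)).contDiffAt)
    (mul_ne_zero two_ne_zero (wsq_pos hg hx).ne')

/-- smoothness of the flux field -/
theorem XG_cd (sf : Smooth f) (sF : Smooth F) (su : Smooth u)
    (hg : ∀ x, 0 ≤ D.F x → ∀ i j, D.g x i j = lvlMetric f F x i j)
    (hx : 0 ≤ D.F x) (i : Fin n) : ContDiffAt ℝ ∞ (XG D.g D.K f F u i) x :=
  ((X0_cd sf sF hg hx i).sub (QZw_cd sf sF hg hx (Zu_cd sf su hx) i)).sub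
    (X2_cd sf sF su hg hx i)

/-- smoothness of the flux field -/
theorem XY_cd (sf : Smooth f) (sF : Smooth F) (su : Smooth u) (sY : ∀ j, Smooth (Y j))
    (hg : ∀ x, 0 ≤ D.F x → ∀ i j, D.g x i j = lvlMetric f F x i j)
    (hx : 0 ≤ D.F x) (i : Fin n) : ContDiffAt ℝ ∞ (XY D.g D.K f F u Y i) x :=
  (XG_cd sf sF su hg hx i).sub
    ((QZw_cd sf sF hg hx (fun j => (sY j).contDiffAt) i).div_const 2)

/-- **The divergence of the flux field**, from the algebraic identity. -/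
theorem div_XY_of (sf : Smooth f) (sF : Smooth F) (su : Smooth u) (sY : ∀ j, Smooth (Y j))
    (hg : ∀ x, 0 ≤ D.F x → ∀ i j, D.g x i j = lvlMetric f F x i j) (hx : 0 < D.F x)
    (hAlg : √(wsq f F x) * (∑ i, ∑ j, momT D.g D.K x i j * grad D.g u i x * grad D.g f j x +
      u x * ∑ i, ∑ j, ∑ k, ∑ l, up D.g i k x * up D.g j l x * momT D.g D.K x i j *
        hess D.g f x k l) + ∑ i, pd i (X2 f F u i) x =
      √(wsq f F x) * ∑ i, ∑ j, momT D.g (rst D.g D.K f F u) x i j * grad D.g u i x *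
        grad D.g f j x + scal D.g x / 2 - mu D.g D.K x -
        (normSq D.g (rst D.g D.K f F u) x - tr D.g (rst D.g D.K f F u) x ^ 2) / 2 -
        (ee f F u x - (∑ i, bv f F i x * (bv f F i x + F x * hf f i x)) / wsq f F x ^ 2)) :
    2 * ∑ i, pd i (XY D.g D.K f F u Y i) x =
      2 * (mu D.g D.K x - u x * √(wsq f F x) * (∑ j, grad D.g f j x * mom D.g D.K j x) +
        ee f F u x) -
      (tr D.g (rst D.g D.K f F u) x ^ 2 - normSq D.g (rst D.g D.K f F u) x +
        2 * √(wsq f F x) *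
          ∑ i, ∑ j, momT D.g (rst D.g D.K f F u) x i j * grad D.g u i x * grad D.g f j x +
        √(wsq f F x) * (∑ j, Y j x * mom D.g D.K j x + piDer D.g D.K Y x)) := by
  have hM := met_D D
  have hxO : x ∈ Oi D := hx
  have met : ∀ z ∈ Oi D, ∀ i j, D.g z i j = lvlMetric f F z i j := fun z hz =>
    hg z (le_of_lt hz)
  have hw : ∀ z ∈ Oi D, 0 < wsq f F z := fun z hz => wsq_pos hg (le_of_lt hz)
  have hK : ∀ i j, CR 1 (Oi D) fun y => D.K y i j := fun i j => cr_of (D.smooth i j).2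
  have h0 := div_X0S sf sF hg hx
  have h1 := div_QZu hM (cr_of sf) (cr_of sF) (cr_of su) met hw hK hxO
  have h2 := div_QZw hM (cr_of sf) (cr_of sF) met hw hK (fun j => cr_of (sY j)) hxO
  have e : ∀ i, pd i (XY D.g D.K f F u Y i) x = pd i (X0 D.g f F i) x -
      pd i (QZ (ww f F) D.g D.K (Zu D.g f u) i) x - pd i (X2 f F u i) x -
      pd i (QZ (ww f F) D.g D.K Y i) x / 2 := by
    intro i
    have a0 : HP i (X0 D.g f F i) _ x :=
      HP.of_diff ((X0_cd sf sF hg hx.le i).differentiableAt (by simp))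
    have a1 : HP i (QZ (ww f F) D.g D.K (Zu D.g f u) i) _ x :=
      HP.of_diff ((QZw_cd sf sF hg hx.le (Zu_cd sf su hx.le) i).differentiableAt (by simp))
    have a2 : HP i (X2 f F u i) _ x :=
      HP.of_diff ((X2_cd sf sF su hg hx.le i).differentiableAt (by simp))
    have a3 : HP i (QZ (ww f F) D.g D.K Y i) _ x :=
      HP.of_diff ((QZw_cd sf sF hg hx.le (fun j => (sY j).contDiffAt) i).differentiableAt
        (by simp))
    have a4 : HP i (fun y => 1 / 2 * QZ (ww f F) D.g D.K Y i y) _ x := a3.const_mul (1 / 2)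
    have a5 : XY D.g D.K f F u Y i = fun y => X0 D.g f F i y -
        QZ (ww f F) D.g D.K (Zu D.g f u) i y - X2 f F u i y -
        1 / 2 * QZ (ww f F) D.g D.K Y i y := by
      funext y
      unfold XY XG
      ring
    rw [a5, (((a0.sub a1).sub a2).sub a4).pd]
    ring
  have e2 : ∑ j, mom D.g D.K j x * Y j x = ∑ j, Y j x * mom D.g D.K j x :=
    Finset.sum_congr rfl fun j _ => mul_comm _ _
  rw [Finset.sum_congr rfl fun i _ => e i]
  rw [Finset.sum_sub_distrib, Finset.sum_sub_distrib, Finset.sum_sub_distrib, ← Finset.sum_div,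
    h0, h1, h2, e2]
  linear_combination (-2) * hAlg

/-- The inequality `StarF` is the nonnegativity of the divergence. -/
theorem star_iff_of (sf : Smooth f) (sF : Smooth F) (su : Smooth u) (sY : ∀ j, Smooth (Y j))
    (hg : ∀ x, 0 ≤ D.F x → ∀ i j, D.g x i j = lvlMetric f F x i j) (hx : 0 < D.F x)
    (hAlg : √(wsq f F x) * (∑ i, ∑ j, momT D.g D.K x i j * grad D.g u i x * grad D.g f j x +
      u x * ∑ i, ∑ j, ∑ k, ∑ l, up D.g i k x * up D.g j l x * momT D.g D.K x i j *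
        hess D.g f x k l) + ∑ i, pd i (X2 f F u i) x =
      √(wsq f F x) * ∑ i, ∑ j, momT D.g (rst D.g D.K f F u) x i j * grad D.g u i x *
        grad D.g f j x + scal D.g x / 2 - mu D.g D.K x -
        (normSq D.g (rst D.g D.K f F u) x - tr D.g (rst D.g D.K f F u) x ^ 2) / 2 -
        (ee f F u x - (∑ i, bv f F i x * (bv f F i x + F x * hf f i x)) / wsq f F x ^ 2)) :
    0 ≤ 2 * ∑ i, pd i (XY D.g D.K f F u Y i) x ↔ StarF D.g D.K f F u Y x := by
  rw [div_XY_of sf sF su sY hg hx hAlg]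
  unfold StarF
  constructor <;> intro h <;> linarith

end Vale.Agent.H707G
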