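import Vale.Agent.P366.H45.Rest

/-! Metrics `g = δ + F df ⊗ df`: the level sets of `f` have their Euclidean metrics. Definitions, in
every space dimension `n`. -/

open MeasureTheory Metric
open scoped ContDiff

noncomputable section
namespace Vale.Agent.P366.FG

open Vale.Agent.P366.Stmt
open Vale.Agent.P366.GraphClass (piDer)

variable {n : ℕ}

/-- The metric `δ + F df ⊗ df`. -/
def lvlMetric (f F : E n → ℝ) : Field n :=
  fun x i j => (if i = j then 1 else 0) + F x * pd i f x * pd j f x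

/-- The determinant `w² = 1 + F |∂f|²` of the metric. -/
def wsq (f F : E n → ℝ) (x : E n) : ℝ := 1 + F x * ∑ i, pd i f x ^ 2

/-- The gradient of `φ` for the metric `g`. -/
def grad (g : Field n) (φ : E n → ℝ) (i : Fin n) (x : E n) : ℝ := ∑ j, up g i j x * pd j φ x

/-- The tensor `k = K - u w ∇²f`. -/
def rst (g K : Field n) (f F u : E n → ℝ) : Field n :=
  fun x i j => K x i j - u x * √(wsq f F x) * hess g f x i j

/-- The Euclidean contraction `D²f(∂f)`. -/
def hf (f : E n → ℝ) (i : Fin n) (x : E n) : ℝ := ∑ j, pd i (pd j f) x * pd j f x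

/-- The one-form `Δf ∂f - D²f(∂f)` (Euclidean). -/
def cf (f : E n → ℝ) (i : Fin n) (x : E n) : ℝ := pd i f x * ∑ j, pd j (pd j f) x - hf f i x

/-- The one-form `b = (|∂f|² ∂F - ⟨∂f, ∂F⟩ ∂f) / 2` (Euclidean). -/
def bv (f F : E n → ℝ) (i : Fin n) (x : E n) : ℝ :=
  ((∑ j, pd j f x ^ 2) * pd i F x - (∑ j, pd j f x * pd j F x) * pd i f x) / 2

/-- The function `⟨b, (1 - u² |∂f|²) b + (F + u²) D²f(∂f) + u w² |∂f|² ∂u⟩ / w⁴` (Euclidean). -/
def ee (f F u : E n → ℝ) (x : E n) : ℝ :=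
  (∑ i, bv f F i x * ((1 - u x ^ 2 * ∑ j, pd j f x ^ 2) * bv f F i x +
    (F x + u x ^ 2) * hf f i x + u x * wsq f F x * (∑ j, pd j f x ^ 2) * pd i u x)) /
    wsq f F x ^ 2

/-- The inequality
`(tr k)² - |k|² + 2 w ψ(∇u, ∇f) + w (J(Y) + ⟨π, ∇Y⟩) ≤ 2 (μ - u w J(∇f) + e)` at `x`, where
`k = K - u w ∇²f` and `ψ = k - (tr k) g`. -/
def StarF (g K : Field n) (f F u : E n → ℝ) (Y : Fin n → E n → ℝ) (x : E n) : Prop :=
  tr g (rst g K f F u) x ^ 2 - normSq g (rst g K f F u) x +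
      2 * √(wsq f F x) *
        ∑ i, ∑ j, momT g (rst g K f F u) x i j * grad g u i x * grad g f j x +
      √(wsq f F x) * (∑ j, Y j x * mom g K j x + piDer g K Y x) ≤
    2 * (mu g K x - u x * √(wsq f F x) * (∑ j, grad g f j x * mom g K j x) + ee f F u x)

end Vale.Agent.P366.FG
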