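import Vale.Agent.P366.H707.G.DivXY
import Vale.Agent.P366.H208.G.G2

/-! Metrics `g = δ + F df ⊗ df`: the divergence of the flux field, final form. -/

open MeasureTheory Metric Filter Topology Set
open scoped ContDiff

noncomputable section
namespace Vale.Agent.H707G

open Vale.Agent.P366.Stmt Vale.Agent.P366.T2 Vale.Agent.P366.FG
open Vale.Agent.P366.GraphClass (piDer covDer)

variable {n : ℕ} {D : Exterior n} {f F u : E n → ℝ} {Y : Fin n → E n → ℝ} {x : E n}

/-- **The divergence of the flux field.** -/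
theorem div_XY (sf : Smooth f) (sF : Smooth F) (su : Smooth u) (sY : ∀ j, Smooth (Y j))
    (hg : ∀ x, 0 ≤ D.F x → ∀ i j, D.g x i j = lvlMetric f F x i j) (hx : 0 < D.F x) :
    2 * ∑ i, pd i (XY D.g D.K f F u Y i) x =
      2 * (mu D.g D.K x - u x * √(wsq f F x) * (∑ j, grad D.g f j x * mom D.g D.K j x) +
        ee f F u x) -
      (tr D.g (rst D.g D.K f F u) x ^ 2 - normSq D.g (rst D.g D.K f F u) x +
        2 * √(wsq f F x) *
          ∑ i, ∑ j, momT D.g (rst D.g D.K f F u) x i j * grad D.g u i x * grad D.g f j x +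
        √(wsq f F x) * (∑ j, Y j x * mom D.g D.K j x + piDer D.g D.K Y x)) :=
  div_XY_of sf sF su sY hg hx
    (Vale.Agent.H208G.alg2 sf sF su (met_D D).op (show x ∈ Oi D from hx)
      (fun z hz => hg z (le_of_lt hz)) (wsq_pos hg hx.le))

/-- The inequality `StarF` is the nonnegativity of the divergence. -/
theorem star_iff (sf : Smooth f) (sF : Smooth F) (su : Smooth u) (sY : ∀ j, Smooth (Y j))
    (hg : ∀ x, 0 ≤ D.F x → ∀ i j, D.g x i j = lvlMetric f F x i j) (hx : 0 < D.F x) :
    0 ≤ 2 * ∑ i, pd i (XY D.g D.K f F u Y i) x ↔ StarF D.g D.K f F u Y x := by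
  rw [div_XY sf sF su sY hg hx]
  unfold StarF
  constructor <;> intro h <;> linarith

end Vale.Agent.H707G
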