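import Vale.Agent.P366.H707.G.Field

/-! Metrics `g = δ + F df ⊗ df`: the divergence of `w π(Z)` and the case `Z = u ∇f`. -/

open MeasureTheory Metric Filter Topology Set
open scoped ContDiff

noncomputable section
namespace Vale.Agent.H707G

open Vale.Agent.P366.Stmt Vale.Agent.P366.T2 Vale.Agent.P366.FG
open Vale.Agent.P366.GC (Met)
open Vale.Agent.P366.H896 (CR)
open Vale.Agent.P366.CF (QZ div_gQ)
open Vale.Agent.P366.GraphClass (piDer covDer)

variable {n : ℕ} {g K : Field n} {f F u : E n → ℝ} {O : Set (E n)} {θ : Fin n → E n → ℝ}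
  {z : E n}

/-- The covariant derivative of the vector field dual to a one-form. -/
theorem covDer_up (hM : Met g O) (hθ : ∀ l, CR 1 O (θ l)) (hz : z ∈ O) (k j : Fin n) :
    covDer g (fun j y => ∑ l, up g j l y * θ l y) k j z =
      ∑ l, up g j l z * (pd k (θ l) z - ∑ d, chr g d k l z * θ d z) := by
  have h1 : pd k (fun y => ∑ m, up g j m y * θ m y) z =
      ∑ m, (pd k (up g j m) z * θ m z + up g j m z * pd k (θ m) z) :=
    (HP.sum _ fun m _ => (hM.hp_up hz k j m).mul (CR.hp (hθ m) hz k) :
      HP k (fun y => ∑ m, up g j m y * θ m y) _ z).pd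
  unfold covDer
  simp only [h1, hM.pd_up hz]
  have e1 : ∀ m, -(∑ d, chr g j k d z * up g d m z + ∑ d, chr g m k d z * up g j d z) * θ m z +
      up g j m z * pd k (θ m) z = up g j m z * pd k (θ m) z -
        ∑ d, chr g j k d z * (up g d m z * θ m z) - ∑ d, up g j d z * (chr g m k d z * θ m z) := by
    intro m
    have a1 : ∑ d, chr g j k d z * (up g d m z * θ m z) =
        (∑ d, chr g j k d z * up g d m z) * θ m z := by
      rw [Finset.sum_mul]
      exact Finset.sum_congr rfl fun d _ => by ring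
    have a2 : ∑ d, up g j d z * (chr g m k d z * θ m z) =
        (∑ d, chr g m k d z * up g j d z) * θ m z := by
      rw [Finset.sum_mul]
      exact Finset.sum_congr rfl fun d _ => by ring
    rw [a1, a2]
    ring
  simp only [e1, mul_sub, Finset.sum_sub_distrib]
  have e2 : ∑ l, chr g j k l z * ∑ m, up g l m z * θ m z =
      ∑ m, ∑ d, chr g j k d z * (up g d m z * θ m z) := by
    simp only [Finset.mul_sum]
    exact Finset.sum_comm
  have e3 : ∑ m, ∑ d, up g j d z * (chr g m k d z * θ m z) =
      ∑ l, up g j l z * ∑ d, chr g d k l z * θ d z := by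
    simp only [Finset.mul_sum]
    exact Finset.sum_comm
  rw [e2, e3]
  ring

/-- `⟨π, ∇(u ∇f)⟩`. -/
theorem piDer_Zu (hM : Met g O) (hf : CR 2 O f) (hu : CR 1 O u) (hz : z ∈ O) :
    piDer g K (Zu g f u) z =
      ∑ i, ∑ j, momT g K z i j * grad g u i z * grad g f j z +
        u z * ∑ i, ∑ j, ∑ k, ∑ l, up g i k z * up g j l z * momT g K z i j * hess g f z k l := by
  have hθ : ∀ l, CR 1 O fun y => u y * pd l f y := fun l => hu.mul (CR.pd hM.op hf l)
  have e : Zu g f u = fun j y => ∑ l, up g j l y * (u y * pd l f y) := by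
    funext j y
    unfold Zu grad
    rw [Finset.mul_sum]
    exact Finset.sum_congr rfl fun l _ => by ring
  have h1 : ∀ k l, pd k (fun y => u y * pd l f y) z - ∑ d, chr g d k l z * (u z * pd d f z) =
      pd k u z * pd l f z + u z * hess g f z k l := by
    intro k l
    have a1 : HP k (fun y => u y * pd l f y) (pd k u z * pd l f z + u z * pd k (pd l f) z) z :=
      (CR.hp hu hz k).mul (CR.hp (CR.pd hM.op hf l) hz k)
    rw [a1.pd]
    unfold hess
    have a2 : ∑ d, chr g d k l z * (u z * pd d f z) = u z * ∑ d, chr g d k l z * pd d f z := by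
      rw [Finset.mul_sum]
      exact Finset.sum_congr rfl fun d _ => by ring
    rw [a2]
    ring
  unfold piDer
  rw [e]
  simp only [covDer_up hM hθ hz, h1]
  have h2 : ∀ i k, up g i k z * ∑ j, momT g K z i j *
      ∑ l, up g j l z * (pd k u z * pd l f z + u z * hess g f z k l) =
      (∑ j, momT g K z i j * (up g i k z * pd k u z) * grad g f j z) +
      u z * ∑ j, ∑ l, up g i k z * up g j l z * momT g K z i j * hess g f z k l := by
    intro i k
    unfold grad
    simp only [Finset.mul_sum, mul_add, Finset.sum_add_distrib]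
    congr 1
    · exact Finset.sum_congr rfl fun j _ => Finset.sum_congr rfl fun l _ => by ring
    · exact Finset.sum_congr rfl fun j _ => Finset.sum_congr rfl fun l _ => by ring
  simp only [h2, Finset.sum_add_distrib]
  congr 1
  · refine Finset.sum_congr rfl fun i _ => ?_
    rw [Finset.sum_comm]
    refine Finset.sum_congr rfl fun j _ => ?_
    rw [← Finset.sum_mul, ← Finset.mul_sum]
    rfl
  · simp only [← Finset.mul_sum]
    congr 1
    exact Finset.sum_congr rfl fun i _ => Finset.sum_comm

namespace G0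

/-- the inverse of `δ + c a ⊗ a` -/
lemma up_one {g : Field n} {y : E n} {a : Fin n → ℝ} {c : ℝ} (hw : 1 + c * ∑ i, a i ^ 2 ≠ 0)
    (hg : ∀ i j, g y i j = (if i = j then 1 else 0) + c * a i * a j) (i j : Fin n) :
    up g i j y = (if i = j then 1 else 0) - c / (1 + c * ∑ i, a i ^ 2) * a i * a j := by
  set t := 1 + c * ∑ i, a i ^ 2 with ht
  have hm : (Matrix.of fun i j => (if i = j then (1 : ℝ) else 0) - c / t * a i * a j) *
      mat g y = 1 := by
    ext p q
    rw [Matrix.mul_apply]
    have e : ∀ k, (Matrix.of fun i j => (if i = j then (1 : ℝ) else 0) -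
        c / t * a i * a j) p k * mat g y k q =
        (if p = k then (if k = q then 1 else 0) + c * a k * a q else 0) -
          (if k = q then c / t * a p * a k else 0) - c / t * c * a p * a q * a k ^ 2 := by
      intro k
      unfold mat
      rw [Matrix.of_apply, hg]
      split_ifs <;> ring
    simp only [e, Finset.sum_sub_distrib, Finset.sum_ite_eq, Finset.sum_ite_eq', Finset.mem_univ,
      if_true, ← Finset.mul_sum]
    rw [Matrix.one_apply]
    have h1 : c * ∑ i, a i ^ 2 = t - 1 := by rw [ht]; ring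
    have h2 : c / t * c * a p * a q * ∑ i, a i ^ 2 = c / t * a p * a q * (t - 1) := by
      rw [← h1]; ring
    rw [h2]
    field_simp
    ring
  unfold up
  rw [Matrix.inv_eq_left_inv hm, Matrix.of_apply]

variable (hM : Met g O) (hf : CR 2 O f) (hF : CR 1 O F)
  (met : ∀ z ∈ O, ∀ i j, g z i j = lvlMetric f F z i j) (hw : ∀ z ∈ O, 0 < wsq f F z)
include hM met hw

lemma up_f (hz : z ∈ O) (i j : Fin n) : up g i j z = (if i = j then 1 else 0) -
    F z / wsq f F z * pd i f z * pd j f z :=
  up_one (a := fun i => pd i f z) (c := F z) (hw z hz).ne' (fun i j => met z hz i j) i j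

lemma grad_f (hz : z ∈ O) (i : Fin n) : ∑ j, up g i j z * pd j f z = pd i f z / wsq f F z := by
  have e : ∀ j, up g i j z * pd j f z = (if i = j then pd j f z else 0) -
      F z / wsq f F z * pd i f z * pd j f z ^ 2 := fun j => by
    rw [up_f hM met hw hz]
    split_ifs <;> ring
  simp only [e, Finset.sum_sub_distrib, Finset.sum_ite_eq, Finset.mem_univ, if_true,
    ← Finset.mul_sum]
  have h1 := (hw z hz).ne'
  have h2 : F z * ∑ i, pd i f z ^ 2 = wsq f F z - 1 := by unfold wsq; ring
  have h3 : F z / wsq f F z * pd i f z * ∑ i, pd i f z ^ 2 =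
      pd i f z / wsq f F z * (wsq f F z - 1) := by rw [← h2]; ring
  rw [h3]
  field_simp
  ring

include hf hF

lemma pd_g (hz : z ∈ O) (k i j : Fin n) : pd k (fun y => g y i j) z =
    pd k F z * pd i f z * pd j f z +
      F z * (pd k (pd i f) z * pd j f z + pd i f z * pd k (pd j f) z) := by
  have h1 : HP k (fun y => (if i = j then 1 else 0) + F y * pd i f y * pd j f y)
      (0 + ((pd k F z * pd i f z + F z * pd k (pd i f) z) * pd j f z +
        F z * pd i f z * pd k (pd j f) z)) z :=
    (HP.const k _ z).add (((CR.hp hF hz k).mul (CR.hp (CR.pd hM.op hf i) hz k)).mul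
      (CR.hp (CR.pd hM.op hf j) hz k))
  have h2 : HP k (fun y => g y i j) _ z := h1.congr (by
    filter_upwards [hM.op.mem_nhds hz] with y hy
    exact met y hy i j)
  rw [h2.pd]
  ring

lemma pd_w (hz : z ∈ O) (k : Fin n) : HP k (wsq f F)
    (pd k F z * ∑ i, pd i f z ^ 2 + 2 * F z * ∑ i, pd k (pd i f) z * pd i f z) z := by
  have h1 : HP k (fun y => 1 + F y * ∑ i, pd i f y * pd i f y) (0 + (pd k F z *
      (∑ i, pd i f z * pd i f z) + F z * ∑ i, (pd k (pd i f) z * pd i f z +
        pd i f z * pd k (pd i f) z))) z :=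
    (HP.const k 1 z).add ((CR.hp hF hz k).mul (HP.sum _ fun i _ =>
      (CR.hp (CR.pd hM.op hf i) hz k).mul (CR.hp (CR.pd hM.op hf i) hz k)))
  have e1 : wsq f F = fun y => 1 + F y * ∑ i, pd i f y * pd i f y := by
    funext y
    unfold wsq
    simp only [sq]
  have e2 : pd k F z * ∑ i, pd i f z ^ 2 + 2 * F z * ∑ i, pd k (pd i f) z * pd i f z =
      0 + (pd k F z * (∑ i, pd i f z * pd i f z) + F z * ∑ i, (pd k (pd i f) z * pd i f z +
        pd i f z * pd k (pd i f) z)) := by
    have e3 : ∀ i, pd k (pd i f) z * pd i f z + pd i f z * pd k (pd i f) z =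
        2 * (pd k (pd i f) z * pd i f z) := fun i => by ring
    simp only [e3, ← Finset.mul_sum, sq]
    ring
  rw [e1, e2]
  exact h1

/-- the trace of the Christoffel symbols -/
lemma chr_tr (hz : z ∈ O) (i : Fin n) : 2 * wsq f F z * ∑ m, chr g m i m z =
    pd i F z * ∑ j, pd j f z ^ 2 + 2 * F z * ∑ j, pd i (pd j f) z * pd j f z := by
  have h1 : ∑ m, chr g m i m z = (∑ m, ∑ l, up g m l z * pd i (fun y => g y m l) z) / 2 := by
    unfold chr
    rw [← Finset.sum_div]
    congr 1
    have e1 : ∀ m l, up g m l z * (pd i (fun y => g y m l) z + pd m (fun y => g y i l) z -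
        pd l (fun y => g y i m) z) = up g m l z * pd i (fun y => g y m l) z +
        up g m l z * pd m (fun y => g y i l) z - up g m l z * pd l (fun y => g y i m) z :=
      fun m l => by ring
    simp only [e1, Finset.sum_add_distrib, Finset.sum_sub_distrib]
    have e2 : ∑ m, ∑ l, up g m l z * pd m (fun y => g y i l) z =
        ∑ m, ∑ l, up g m l z * pd l (fun y => g y i m) z := by
      rw [Finset.sum_comm]
      exact Finset.sum_congr rfl fun m _ => Finset.sum_congr rfl fun l _ => by
        rw [hM.up_symm hz l m]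
    rw [e2]
    ring
  have h2 : ∑ m, ∑ l, up g m l z * pd i (fun y => g y m l) z =
      (pd i F z * ∑ j, pd j f z ^ 2 + 2 * F z * ∑ j, pd i (pd j f) z * pd j f z) /
        wsq f F z := by
    have e1 : ∀ m l, up g m l z * pd i (fun y => g y m l) z =
        (pd i F z * pd m f z + F z * pd i (pd m f) z) * (up g m l z * pd l f z) +
          F z * pd i (pd l f) z * (up g l m z * pd m f z) := fun m l => by
      rw [pd_g hM hf hF met hw hz, hM.up_symm hz l m]
      ring
    have e2 : ∑ m, ∑ l, F z * pd i (pd l f) z * (up g l m z * pd m f z) =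
        ∑ l, F z * pd i (pd l f) z * ∑ m, up g l m z * pd m f z := by
      rw [Finset.sum_comm]
      exact Finset.sum_congr rfl fun l _ => by rw [Finset.mul_sum]
    simp only [e1, Finset.sum_add_distrib, ← Finset.mul_sum, grad_f hM met hw hz]
    rw [e2]
    simp only [grad_f hM met hw hz, ← Finset.sum_add_distrib]
    have e3 : ∀ m, (pd i F z * pd m f z + F z * pd i (pd m f) z) * (pd m f z / wsq f F z) +
        F z * pd i (pd m f) z * (pd m f z / wsq f F z) =
        (pd i F z * pd m f z ^ 2 + 2 * F z * (pd i (pd m f) z * pd m f z)) / wsq f F z :=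
      fun m => by ring
    rw [Finset.sum_congr rfl fun m _ => e3 m, ← Finset.sum_div, Finset.sum_add_distrib,
      Finset.mul_sum, Finset.mul_sum]
  have h3 := (hw z hz).ne'
  rw [h1, h2]
  field_simp

/-- the volume element -/
lemma vol (hz : z ∈ O) (i : Fin n) : HP i (fun y => √(1 + ww f F y))
    (√(1 + ww f F z) * ∑ m, chr g m i m z) z := by
  have hp := hw z hz
  have h2 := pd_w hM hf hF met hw hz i
  rw [← chr_tr hM hf hF met hw hz i] at h2
  have h4 : HP i (fun y => √(wsq f F y)) ((2 * wsq f F z * ∑ m, chr g m i m z) /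
      (2 * √(wsq f F (z + (0 : ℝ) • EuclideanSpace.single i (1 : ℝ))))) z :=
    HasDerivAt.sqrt h2 (by simpa using hp.ne')
  have hss := Real.mul_self_sqrt hp.le
  have hs : √(wsq f F z) ≠ 0 := (Real.sqrt_pos.2 hp).ne'
  have e : √(wsq f F z) * ∑ m, chr g m i m z = (2 * wsq f F z * ∑ m, chr g m i m z) /
      (2 * √(wsq f F (z + (0 : ℝ) • EuclideanSpace.single i (1 : ℝ)))) := by
    rw [zero_smul, add_zero, eq_div_iff (by positivity)]
    linear_combination (2 * ∑ m, chr g m i m z) * hss
  show HP i (fun y => √(wsq f F y)) (√(wsq f F z) * ∑ m, chr g m i m z) z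
  rw [e]
  exact h4

end G0

/-- **The divergence of `w π(Z)`.** -/
theorem div_QZw (hM : Met g O) (hf : CR 2 O f) (hF : CR 1 O F)
    (met : ∀ z ∈ O, ∀ i j, g z i j = lvlMetric f F z i j) (hw : ∀ z ∈ O, 0 < wsq f F z)
    (hK : ∀ i j, CR 1 O fun y => K y i j) {Z : Fin n → E n → ℝ} (hZ : ∀ j, CR 1 O (Z j))
    (hz : z ∈ O) :
    ∑ i, pd i (QZ (ww f F) g K Z i) z = √(wsq f F z) * (∑ j, mom g K j z * Z j z +
      piDer g K Z z) :=
  div_gQ hM hK hZ hz fun i => G0.vol hM hf hF met hw hz i

lemma cr_Zu (hM : Met g O) (hf : CR 2 O f) (hu : CR 1 O u) (j : Fin n) :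
    CR 1 O (Zu g f u j) :=
  hu.mul (CR.sum _ fun l => ((hM.cr_up j l).le (by norm_num)).mul (CR.pd hM.op hf l))

/-- The divergence of `w π(u ∇f)`. -/
theorem div_QZu (hM : Met g O) (hf : CR 2 O f) (hF : CR 1 O F) (hu : CR 1 O u)
    (met : ∀ z ∈ O, ∀ i j, g z i j = lvlMetric f F z i j) (hw : ∀ z ∈ O, 0 < wsq f F z)
    (hK : ∀ i j, CR 1 O fun y => K y i j) (hz : z ∈ O) :
    ∑ i, pd i (QZ (ww f F) g K (Zu g f u) i) z = √(wsq f F z) *
      (u z * (∑ j, grad g f j z * mom g K j z) +
        (∑ i, ∑ j, momT g K z i j * grad g u i z * grad g f j z +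
        u z * ∑ i, ∑ j, ∑ k, ∑ l, up g i k z * up g j l z * momT g K z i j *
          hess g f z k l)) := by
  rw [div_QZw hM hf hF met hw hK (cr_Zu hM hf hu) hz, piDer_Zu hM hf hu hz]
  congr 2
  rw [Finset.mul_sum]
  exact Finset.sum_congr rfl fun j _ => by unfold Zu; ring

end Vale.Agent.H707G
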